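import Vale.Agent.P297.H600.QDict
import Vale.Agent.P297.Gen.Der
import Vale.Agent.P297.H572.Z3.Mem

/-!
The invariant differential of a short Weierstrass curve is additive: points of the curve and
derivations which kill the coefficients.
-/

set_option linter.unusedSectionVars false

namespace Vale.Agent.P297.H957

open Vale.Agent.P297 Vale.Agent.P297.Gen Vale.Agent.P297.Z3 Vale.Agent.P297.G4
open WeierstrassCurve WeierstrassCurve.Affine

section

variable {k : Type} [Field k] [CharZero k] {a b : k}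

/-- the value `D x / y` of the invariant differential -/
noncomputable def lam (D : Derivation ℤ k k) : (wc a b).toAffine.Point → k
  | 0 => 0
  | .some x y _ => D x / y

theorem lam_zero (D : Derivation ℤ k k) : lam D (0 : (wc a b).toAffine.Point) = 0 := rfl

theorem lam_some (D : Derivation ℤ k k) {x y : k} (h : (wc a b).toAffine.Nonsingular x y) :
    lam D (.some x y h) = D x / y := rfl

theorem D_pow_two (D : Derivation ℤ k k) (x : k) : D (x ^ 2) = 2 * x * D x := by
  rw [Derivation.leibniz_pow]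
  simp [mul_assoc]

theorem D_pow_three (D : Derivation ℤ k k) (x : k) : D (x ^ 3) = 3 * x ^ 2 * D x := by
  rw [Derivation.leibniz_pow]
  simp [mul_assoc]

theorem wc_deriv (D : Derivation ℤ k k) (ha : D a = 0) (hb : D b = 0) {x y : k}
    (h : y ^ 2 = x ^ 3 + a * x + b) : 2 * y * D y = (3 * x ^ 2 + a) * D x := by
  have h1 := congrArg D h
  rw [D_pow_two, map_add, map_add, D_pow_three, Derivation.leibniz, ha, hb] at h1
  simp only [smul_eq_mul] at h1
  linear_combination h1

theorem nonsing_y {x y : k} (h : (wc a b).toAffine.Nonsingular x y) (hy : y = 0) :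
    3 * x ^ 2 + a ≠ 0 := by
  rw [Affine.nonsingular_iff] at h
  obtain ⟨-, h1⟩ := h
  intro h0
  subst hy
  rcases h1 with h1 | h1
  · apply h1
    simp only [wc]
    linear_combination -h0
  · apply h1
    simp [wc]

theorem D_x (D : Derivation ℤ k k) (ha : D a = 0) (hb : D b = 0) {x y : k}
    (h : (wc a b).toAffine.Nonsingular x y) : D x = lam D (.some x y h) * y := by
  rw [lam_some]
  by_cases hy : y = 0
  · have h1 := wc_deriv D ha hb (wc_equation.1 h.1)
    have h2 := nonsing_y h hy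
    have h3 : (3 * x ^ 2 + a) * D x = 0 := by
      rw [← h1, hy]
      ring
    rw [(mul_eq_zero.1 h3).resolve_left h2]
    simp
  · rw [div_mul_cancel₀ _ hy]

theorem D_y (D : Derivation ℤ k k) (ha : D a = 0) (hb : D b = 0) {x y : k}
    (h : (wc a b).toAffine.Nonsingular x y) :
    D y = lam D (.some x y h) * ((3 * x ^ 2 + a) / 2) := by
  have h1 := wc_deriv D ha hb (wc_equation.1 h.1)
  have h2 := D_x D ha hb h
  by_cases hy : y = 0
  · rw [lam_some, hy]
    simp
  · have h3 : (2 * y) * (D y - lam D (.some x y h) * ((3 * x ^ 2 + a) / 2)) = 0 := by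
      linear_combination h1 + (3 * x ^ 2 + a) * h2
    have h4 := (mul_eq_zero.1 h3).resolve_left (mul_ne_zero two_ne_zero hy)
    exact sub_eq_zero.1 h4

/-- the points killed by the differential have constant coordinates -/
theorem D_eq_zero {D : Derivation ℤ k k} (ha : D a = 0) (hb : D b = 0) {x y : k}
    (h : (wc a b).toAffine.Nonsingular x y) (h0 : lam D (.some x y h) = 0) :
    D x = 0 ∧ D y = 0 := by
  rw [D_x D ha hb h, D_y D ha hb h, h0]
  simp

/-- the computation behind additivity -/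
theorem add_aux (D : Derivation ℤ k k) {x₁ y₁ x₂ y₂ l L₁ L₂ : k}
    (hl2 : y₂ = l * (x₂ - x₁) + y₁)
    (hDx1 : D x₁ = L₁ * y₁) (hDx2 : D x₂ = L₂ * y₂) (hDy1 : D y₁ = L₁ * ((3 * x₁ ^ 2 + a) / 2))
    (hDl : D l = -(L₁ * (l ^ 2 - x₁ - x₂ - x₁) + L₂ * (l ^ 2 - x₁ - x₂ - x₂)) / 2)
    (E1 : (x₁ - x₂) * (x₁ - (l ^ 2 - x₁ - x₂)) = 3 * x₁ ^ 2 + a - 2 * l * y₁)
    (E3 : (l ^ 2 - x₁ - x₂ - x₁) * (l ^ 2 - x₁ - x₂ - x₂) = 3 * (l ^ 2 - x₁ - x₂) ^ 2 + a -
      2 * l * (l * (l ^ 2 - x₁ - x₂ - x₁) + y₁)) :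
    D (l ^ 2 - x₁ - x₂) = (L₁ + L₂) * -(l * (l ^ 2 - x₁ - x₂ - x₁) + y₁) ∧
    D (-(l * (l ^ 2 - x₁ - x₂ - x₁) + y₁)) =
      (L₁ + L₂) * ((3 * (l ^ 2 - x₁ - x₂) ^ 2 + a) / 2) := by
  have h1 : D (l ^ 2 - x₁ - x₂) = (L₁ + L₂) * -(l * (l ^ 2 - x₁ - x₂ - x₁) + y₁) := by
    rw [map_sub, map_sub, D_pow_two, hDl, hDx1, hDx2, hl2]
    ring
  refine ⟨h1, ?_⟩
  have h2 : D (-(l * (l ^ 2 - x₁ - x₂ - x₁) + y₁)) =
      -(l * (D (l ^ 2 - x₁ - x₂) - D x₁) + (l ^ 2 - x₁ - x₂ - x₁) * D l + D y₁) := by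
    rw [map_neg, map_add, Derivation.leibniz, map_sub D (l ^ 2 - x₁ - x₂) x₁]
    simp only [smul_eq_mul]
  rw [h2, h1, hDl, hDx1, hDy1]
  linear_combination ((L₁ + L₂) / 2) * E3 + (L₁ / 2) * E1

variable [DecidableEq k]

theorem lam_add (D : Derivation ℤ k k) (ha : D a = 0) (hb : D b = 0)
    (P Q : (wc a b).toAffine.Point) : lam D (P + Q) = lam D P + lam D Q := by
  rcases P with (_ | ⟨x₁, y₁, h₁⟩)
  · have h0 : (Point.zero : (wc a b).toAffine.Point) + Q = Q := zero_add Q
    have h1 : lam D (Point.zero : (wc a b).toAffine.Point) = 0 := rfl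
    rw [h0, h1, zero_add]
  rcases Q with (_ | ⟨x₂, y₂, h₂⟩)
  · have h0 : Point.some x₁ y₁ h₁ + (Point.zero : (wc a b).toAffine.Point) =
      Point.some x₁ y₁ h₁ := add_zero _
    have h1 : lam D (Point.zero : (wc a b).toAffine.Point) = 0 := rfl
    rw [h0, h1, add_zero]
  have q1 := wc_equation.1 h₁.1
  have q2 := wc_equation.1 h₂.1
  have hx1 := D_x D ha hb h₁
  have hx2 := D_x D ha hb h₂
  have hy1 := D_y D ha hb h₁
  have hy2 := D_y D ha hb h₂
  by_cases hneg : x₁ = x₂ ∧ y₁ = (wc a b).toAffine.negY x₂ y₂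
  · obtain ⟨rfl, hy⟩ := hneg
    rw [Point.add_of_Y_eq rfl hy, lam_zero, lam_some, lam_some, hy, wc_negY, div_neg]
    ring
  · rw [Point.add_some hneg]
    have hfin : ∀ {l : k}, l = (wc a b).toAffine.slope x₁ x₂ y₁ y₂ →
        y₂ = l * (x₂ - x₁) + y₁ →
        (D l = -(lam D (.some x₁ y₁ h₁) * (l ^ 2 - x₁ - x₂ - x₁) +
          lam D (.some x₂ y₂ h₂) * (l ^ 2 - x₁ - x₂ - x₂)) / 2) →
        ((x₁ - x₂) * (x₁ - (l ^ 2 - x₁ - x₂)) = 3 * x₁ ^ 2 + a - 2 * l * y₁) →
        lam D (.some _ _ (Affine.nonsingular_add h₁ h₂ hneg)) =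
          lam D (.some x₁ y₁ h₁) + lam D (.some x₂ y₂ h₂) := by
      rintro l rfl hl2 hDl E1
      have E3 : ((wc a b).toAffine.slope x₁ x₂ y₁ y₂ ^ 2 - x₁ - x₂ - x₁) *
          ((wc a b).toAffine.slope x₁ x₂ y₁ y₂ ^ 2 - x₁ - x₂ - x₂) =
          3 * ((wc a b).toAffine.slope x₁ x₂ y₁ y₂ ^ 2 - x₁ - x₂) ^ 2 + a -
          2 * (wc a b).toAffine.slope x₁ x₂ y₁ y₂ *
            ((wc a b).toAffine.slope x₁ x₂ y₁ y₂ *
              ((wc a b).toAffine.slope x₁ x₂ y₁ y₂ ^ 2 - x₁ - x₂ - x₁) + y₁) := by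
        linear_combination E1
      obtain ⟨d1, d2⟩ := add_aux D hl2 hx1 hx2 hy1 hDl E1 E3
      set l := (wc a b).toAffine.slope x₁ x₂ y₁ y₂ with hl
      have hns := Affine.nonsingular_add h₁ h₂ hneg
      rw [lam_some]
      by_cases h3 : (wc a b).toAffine.addY x₁ x₂ y₁ l = 0
      · have h4 := nonsing_y hns h3
        rw [wc_addY] at h3
        rw [h3, map_zero] at d2
        rw [wc_addX] at h4
        have h5 : lam D (.some x₁ y₁ h₁) + lam D (.some x₂ y₂ h₂) = 0 := by
          rcases mul_eq_zero.1 d2.symm with h6 | h6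
          · exact h6
          · exfalso
            apply h4
            linear_combination 2 * h6
        rw [wc_addY, h3, div_zero, h5]
      · rw [div_eq_iff h3, wc_addX, wc_addY]
        exact d1
    by_cases hx : x₁ = x₂
    · subst hx
      have hy : y₁ ≠ (wc a b).toAffine.negY x₁ y₂ := fun h => hneg ⟨rfl, h⟩
      have hyy : y₁ = y₂ := by
        have h3 : (y₁ - y₂) * (y₁ + y₂) = 0 := by linear_combination q1 - q2
        rcases mul_eq_zero.1 h3 with h4 | h4
        · exact sub_eq_zero.1 h4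
        · exfalso
          apply hy
          rw [wc_negY]
          linear_combination h4
      subst hyy
      have hy0 : y₁ ≠ 0 := by
        intro h3
        apply hy
        rw [wc_negY, h3, neg_zero]
      have hs : (wc a b).toAffine.slope x₁ x₁ y₁ y₁ = (3 * x₁ ^ 2 + a) / (2 * y₁) := by
        rw [Affine.slope_of_Y_ne rfl hy, wc_negY]
        simp only [wc]
        congr 1 <;> ring
      have hl : (wc a b).toAffine.slope x₁ x₁ y₁ y₁ * (2 * y₁) = 3 * x₁ ^ 2 + a := by
        rw [hs, div_mul_cancel₀ _ (mul_ne_zero two_ne_zero hy0)]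
      refine hfin rfl (by ring) ?_ ?_
      · have h3 := congrArg D hl
        rw [Derivation.leibniz, Derivation.leibniz, map_add, Derivation.leibniz, D_pow_two,
          ha] at h3
        have h2' : D (2 : k) = 0 := by
          have := D.map_natCast 2
          simpa using this
        have h3' : D (3 : k) = 0 := by
          have := D.map_natCast 3
          simpa using this
        simp only [smul_eq_mul, h2', h3', mul_zero, add_zero] at h3
        have h4 : (2 * y₁) * (D ((wc a b).toAffine.slope x₁ x₁ y₁ y₁) -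
            -(lam D (.some x₁ y₁ h₁) * ((wc a b).toAffine.slope x₁ x₁ y₁ y₁ ^ 2 - x₁ - x₁ - x₁) +
          lam D (.some x₁ y₁ h₂) * ((wc a b).toAffine.slope x₁ x₁ y₁ y₁ ^ 2 - x₁ - x₁ - x₁)) / 2)
            = 0 := by
          set l := (wc a b).toAffine.slope x₁ x₁ y₁ y₁
          have h5 : lam D (.some x₁ y₁ h₂) = lam D (.some x₁ y₁ h₁) := rfl
          rw [h5]
          rw [hx1] at h3
          linear_combination h3 - 2 * l * hy1 + l * lam D (.some x₁ y₁ h₁) * hl
        exact sub_eq_zero.1 ((mul_eq_zero.1 h4).resolve_left (mul_ne_zero two_ne_zero hy0))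
      · linear_combination hl
    · have hh : x₁ - x₂ ≠ 0 := sub_ne_zero.2 hx
      have hl : (wc a b).toAffine.slope x₁ x₂ y₁ y₂ * (x₁ - x₂) = y₁ - y₂ := by
        rw [wc_slope_of_ne hx, div_mul_cancel₀ _ hh]
      have hl2 : y₂ = (wc a b).toAffine.slope x₁ x₂ y₁ y₂ * (x₂ - x₁) + y₁ := by
        linear_combination hl
      set l := (wc a b).toAffine.slope x₁ x₂ y₁ y₂ with hldef
      have hk : l * (y₁ + y₂) = x₁ ^ 2 + x₁ * x₂ + x₂ ^ 2 + a := by
        have h3 : (x₁ - x₂) * (l * (y₁ + y₂) - (x₁ ^ 2 + x₁ * x₂ + x₂ ^ 2 + a)) = 0 := by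
          linear_combination (y₁ + y₂) * hl + q1 - q2
        exact sub_eq_zero.1 ((mul_eq_zero.1 h3).resolve_left hh)
      have E1 : (x₁ - x₂) * (x₁ - (l ^ 2 - x₁ - x₂)) = 3 * x₁ ^ 2 + a - 2 * l * y₁ := by
        linear_combination -l * hl + hk
      have E2 : (x₂ - x₁) * (x₂ - (l ^ 2 - x₁ - x₂)) = 3 * x₂ ^ 2 + a - 2 * l * y₂ := by
        linear_combination l * hl + hk
      refine hfin rfl hl2 ?_ E1
      have h3 := congrArg D hl
      rw [Derivation.leibniz, map_sub, map_sub] at h3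
      simp only [smul_eq_mul] at h3
      rw [hx1, hx2, hy1, hy2] at h3
      have h4 : (x₁ - x₂) * (D l - -(lam D (.some x₁ y₁ h₁) * (l ^ 2 - x₁ - x₂ - x₁) +
          lam D (.some x₂ y₂ h₂) * (l ^ 2 - x₁ - x₂ - x₂)) / 2) = 0 := by
        linear_combination h3 - (lam D (.some x₁ y₁ h₁) / 2) * E1 +
          (lam D (.some x₂ y₂ h₂) / 2) * E2
      exact sub_eq_zero.1 ((mul_eq_zero.1 h4).resolve_left hh)


/-- the invariant differential as a homomorphism -/
noncomputable def lamHom (D : Derivation ℤ k k) (ha : D a = 0) (hb : D b = 0) :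
    (wc a b).toAffine.Point →+ k where
  toFun := lam D
  map_zero' := lam_zero D
  map_add' := lam_add D ha hb

end

section

variable {N : Type} [Field N] [Algebra ℂ N] [IsAlgClosed N]

/-- an element killed by all derivations over a closed subfield belongs to the subfield -/
theorem mem_of_der {M : IntermediateField ℂ N} (hM : ∀ x : N, IsAlgebraic M x → x ∈ M) {x : N}
    (h : ∀ D : Derivation ℤ N N, (∀ u ∈ M, D u = 0) → D x = 0) : x ∈ M := by
  by_contra hx
  obtain ⟨D, hD, h1⟩ := exists_derivation M (w := x) (fun h2 => hx (hM x h2))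
  rw [h D hD] at h1
  exact zero_ne_one h1

variable {a b : N}

/-- a point killed by the differential for all derivations over a closed subfield has its
coordinates in the subfield -/
theorem inF_of_lam [CharZero N] {M : IntermediateField ℂ N}
    (hM : ∀ x : N, IsAlgebraic M x → x ∈ M)
    (ha : a ∈ M) (hb : b ∈ M) {P : (wc a b).toAffine.Point}
    (h : ∀ D : Derivation ℤ N N, (∀ u ∈ M, D u = 0) → lam D P = 0) : InF M P := by
  intro x y hxy hP
  subst hP
  exact ⟨mem_of_der hM fun D hD => (D_eq_zero (hD a ha) (hD b hb) hxy (h D hD)).1,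
    mem_of_der hM fun D hD => (D_eq_zero (hD a ha) (hD b hb) hxy (h D hD)).2⟩

end

section

variable {k : Type} [Field k] [CharZero k] {c : Fin 5 → k} {e : k}

theorem D_q1 {D : Derivation ℤ k k} (hc : ∀ i, D (c i) = 0) (he : D e = 0) :
    D (q1 c e) = 0 := by
  unfold q1
  have h2 : D (2 : k) = 0 := by simpa using D.map_natCast 2
  have h3 : D (3 : k) = 0 := by simpa using D.map_natCast 3
  have h4 : D (4 : k) = 0 := by simpa using D.map_natCast 4
  simp [Derivation.leibniz, D_pow_two, D_pow_three, hc, he, h2, h3, h4]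

theorem D_q2 {D : Derivation ℤ k k} (hc : ∀ i, D (c i) = 0) (he : D e = 0) :
    D (q2 c e) = 0 := by
  unfold q2
  have h3 : D (3 : k) = 0 := by simpa using D.map_natCast 3
  have h6 : D (6 : k) = 0 := by simpa using D.map_natCast 6
  simp [Derivation.leibniz, D_pow_two, hc, he, h3, h6]

/-- the differentials of a quartic and of its jacobian -/
theorem D_quartic {D : Derivation ℤ k k} {q1 s e x y : k} (hq : D q1 = 0) (hs : D s = 0)
    (he : D e = 0) (hq0 : q1 ≠ 0) (hx : x ≠ s) :
    D (e + q1 / (x - s)) / (q1 * y / (x - s) ^ 2) = -(D x / y) := by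
  have h1 : x - s ≠ 0 := sub_ne_zero.2 hx
  have h2 : D (q1 / (x - s)) * (x - s) + (q1 / (x - s)) * D x = 0 := by
    have h3 : q1 / (x - s) * (x - s) = q1 := div_mul_cancel₀ _ h1
    have h4 := congrArg D h3
    rw [Derivation.leibniz, map_sub, hs, hq, sub_zero] at h4
    simp only [smul_eq_mul] at h4
    linear_combination h4
  have h3 : D (e + q1 / (x - s)) = -(q1 * D x / (x - s) ^ 2) := by
    rw [map_add, he, zero_add]
    have h5 : D (q1 / (x - s)) = -((q1 / (x - s)) * D x) / (x - s) := by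
      rw [eq_div_iff h1]
      linear_combination h2
    rw [h5]
    field_simp
  rw [h3]
  by_cases hy : y = 0
  · simp [hy]
  · field_simp

/-- the same for the maps `aX`, `aY` -/
theorem lam_quartic {D : Derivation ℤ k k} (hd : 4 * qI c ^ 3 ≠ qJ c ^ 2) (hr : qv c e = 0)
    (hc : ∀ i, D (c i) = 0) (he : D e = 0) {P : (Wq c).Point} (hP : Fin' c e P) :
    D (aX c e P) / aY c e P = -lam D P := by
  obtain ⟨x, y, h, rfl, hx⟩ := hP
  rw [aX_some, aY_some, lam_some]
  refine D_quartic (D_q1 hc he) ?_ he (q1_ne hd hr) hx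
  have h3 : D (3 : k) = 0 := by simpa using D.map_natCast 3
  rw [div_eq_mul_inv, Derivation.leibniz, D_q2 hc he]
  have h4 : D ((3 : k)⁻¹) = 0 := by
    have h5 : (3 : k) * (3 : k)⁻¹ = 1 := mul_inv_cancel₀ (by norm_num)
    have h6 := congrArg D h5
    rw [Derivation.leibniz, h3, D.map_one_eq_zero] at h6
    simp only [smul_eq_mul, mul_zero, add_zero] at h6
    exact (mul_eq_zero.1 h6).resolve_left (by norm_num)
  rw [h4]
  simp

end

section

variable {k : Type} [Field k]

/-- Three lines `κ p - r = z` and a fourth line `α p + β r + γ = 0`: Lagrange interpolation at the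
three intersection points, in a form without denominators. -/
theorem lagrange_ring (α β γ ap ar a0 : k) (κ z : Fin 3 → k) :
    let Δ : Fin 3 → Fin 3 → k := fun i j =>
      β * (κ i * z j - κ j * z i) + γ * (κ j - κ i) + α * (z j - z i)
    let n : Fin 3 → k := fun j =>
      ap * (β * z j - γ) - ar * (κ j * γ + α * z j) + a0 * (α + β * κ j)
    n 0 * Δ 1 2 + n 1 * Δ 2 0 + n 2 * Δ 0 1 = 0 := by
  intro Δ n
  simp only [Δ, n]
  ring

end

end Vale.Agent.P297.H957
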